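import Crest.Agent.R6.Defs

/-!
# Row 6: the certificate checker (definitions).  FROZEN (helper95).

Fixed point scale `2^40`; weights have denominator `2^20`; the variable is `x = (X + u R)/2^30`,
`|u| ≤ 1`; atoms are `Y = (a + b i)/2^24`.
A term `t` stands for `(t.w/2^20) log ‖(A0 + A1 x' + A2 x'²)/2^sh‖`, `x' = 2^30 x`, with Gaussian
integers `A0 = a0 + b0 i`, ….
-/

set_option autoImplicit false

namespace Crest.Agent.R6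

/-- upper bound for `‖p + q i‖` -/
def nb (p q : Int) : Nat :=
  if p.natAbs ≤ q.natAbs then q.natAbs + (p.natAbs + 1) / 2 else p.natAbs + (q.natAbs + 1) / 2

/-- `45045 · 2^720 · ∑_{j<8} z^(2j+1)/(2j+1)` at `z = Z/2^48`, `y = Z²` -/
def poly8 (Z y : Nat) : Nat :=
  Z * (45045 * 2 ^ 672 + y * (15015 * 2 ^ 576 + y * (9009 * 2 ^ 480 + y * (6435 * 2 ^ 384 +
    y * (5005 * 2 ^ 288 + y * (4095 * 2 ^ 192 + y * (3465 * 2 ^ 96 + y * 3003)))))))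

/-- `2^40 · 2 ∑_{j<8} z^(2j+1)/(2j+1)`, rounded down -/
def at8 (Z : Nat) : Nat := poly8 Z (Z * Z) / (45045 * 2 ^ 679)

def zOf (n k : Nat) : Nat := (n - 2 ^ k) * 2 ^ 48 / (n + 2 ^ k)

/-- lower bound for `2^40 log(n/2^s)`, `k = log2 n` -/
def lgLo' (n s k : Nat) : Int :=
  (if s ≤ k then Int.ofNat ((k - s) * 762123384499) else -Int.ofNat ((s - k) * 762123385051)) +
    Int.ofNat (at8 (zOf n k))

/-- upper bound for `2^40 log(n/2^s)`, `k = log2 n` -/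
def lgHi' (n s k : Nat) : Int :=
  (if s ≤ k then Int.ofNat ((k - s) * 762123385051) else -Int.ofNat ((s - k) * 762123384499)) +
    Int.ofNat (at8 (zOf n k + 1) + 26000)

def lgLo (n s : Nat) : Int := lgLo' n s n.log2

def lgHi (n s : Nat) : Int := lgHi' n s n.log2

/-- upper bound for `w · 2^40 log(n/2^s)` -/
def wlg (w : Int) (n s : Nat) : Int := if 0 ≤ w then w * lgHi n s else w * lgLo n s

structure Term where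
  w : Int
  a0 : Int
  b0 : Int
  a1 : Int
  b1 : Int
  a2 : Int
  b2 : Int
  sh : Nat
deriving DecidableEq

/-- accumulator: value, linear coefficient, quadratic coefficient, error (scale `2^61`) -/
structure Acc where
  ok : Bool
  v : Int
  d1 : Int
  d2 : Int
  e : Nat

/-- Taylor step; `c0 = r0 + i0 I`, `n = ‖c0‖²`, `c1 conj c0 = p1 + q1 I`, `c2 conj c0 = p2 + q2 I`,
`o1/2^40 ≥ ‖c1/c0‖`, `o2/2^40 ≥ ‖c2/c0‖` -/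
def stepT (w : Int) (sh n : Nat) (p1 q1 p2 : Int) (o1 o2 : Nat) (A : Acc) : Acc :=
  ⟨A.ok, A.v + wlg w n (2 * sh), A.d1 + 2 * w * (p1 * 2 ^ 40 / n),
    A.d2 + 2 * w * ((2 * p2 * n - (p1 * p1 - q1 * q1)) * 2 ^ 39 / ((n * n : Nat) : Int)),
    A.e + 2 * w.natAbs * ((o1 + o2) * o2 / 2 ^ 40 + 4 * (o1 + o2) ^ 3 / (9 * 2 ^ 80) + 4)⟩

/-- crude step (only for `w ≥ 0`); `B ≥ ‖c0‖ + ‖c1‖ + ‖c2‖` -/
def stepC (w : Int) (sh B : Nat) (A : Acc) : Acc :=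
  ⟨A.ok && decide (0 ≤ w), A.v + w * lgHi (B * B) (2 * sh), A.d1, A.d2, A.e⟩

def step3 (w : Int) (sh n : Nat) (p1 q1 p2 : Int) (o1 o2 : Nat) (r0 i0 r1 i1 r2 i2 : Int)
    (A : Acc) : Acc :=
  if o1 + o2 ≤ 2 ^ 38 then stepT w sh n p1 q1 p2 o1 o2 A
  else stepC w sh (nb r0 i0 + nb r1 i1 + nb r2 i2) A

def step2 (w : Int) (sh n : Nat) (p1 q1 p2 q2 : Int) (r0 i0 r1 i1 r2 i2 : Int) (A : Acc) : Acc :=
  if n = 0 then stepC w sh (nb r1 i1 + nb r2 i2) A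
  else step3 w sh n p1 q1 p2 (nb p1 q1 * 2 ^ 40 / n + 1) (nb p2 q2 * 2 ^ 40 / n + 1)
    r0 i0 r1 i1 r2 i2 A

def step1 (w : Int) (sh : Nat) (r0 i0 r1 i1 r2 i2 : Int) (A : Acc) : Acc :=
  step2 w sh (r0.natAbs * r0.natAbs + i0.natAbs * i0.natAbs) (r1 * r0 + i1 * i0) (i1 * r0 - r1 * i0)
    (r2 * r0 + i2 * i0) (i2 * r0 - r2 * i0) r0 i0 r1 i1 r2 i2 A

def step (X R : Int) (t : Term) (A : Acc) : Acc :=
  step1 t.w t.sh ((t.a2 * X + t.a1) * X + t.a0) ((t.b2 * X + t.b1) * X + t.b0)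
    ((2 * t.a2 * X + t.a1) * R) ((2 * t.b2 * X + t.b1) * R) (t.a2 * R * R) (t.b2 * R * R) A

def run (X R : Int) : List Term → Acc → Acc
  | [], A => A
  | t :: l, A => run X R l (step X R t A)

def accOk (A : Acc) (M : Int) : Bool :=
  A.ok && decide (A.v + A.d1.natAbs + A.d2.toNat + A.e ≤ M)

/-- check the intervals `[a, a + 2R]` for the successive half-widths `R` of the list -/
def chk (l : List Term) (M : Int) : Int → List Nat → Bool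
  | _, [] => true
  | a, R :: Rs => accOk (run (a + R) R l ⟨true, 0, 0, 0, 0⟩) M && chk l M (a + 2 * R) Rs

/-- the polynomial of a term, at `y = 2^30 x` -/
noncomputable def Term.poly (t : Term) (y : ℝ) : ℂ :=
  ((t.a0 : ℂ) + t.b0 * Complex.I) + ((t.a1 : ℂ) + t.b1 * Complex.I) * y +
    ((t.a2 : ℂ) + t.b2 * Complex.I) * (y : ℂ) ^ 2

noncomputable def Term.val (t : Term) (y : ℝ) : ℝ :=
  (t.w : ℝ) / 2 ^ 20 * Real.log (‖t.poly y‖ / 2 ^ t.sh)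

/-- the sum of the terms is `≤ M/2^61` for `a ≤ y ≤ b` -/
def Bd (l : List Term) (M a b : Int) : Prop :=
  ∀ y : ℝ, (a : ℝ) ≤ y → y ≤ b → (∀ t ∈ l, t.poly y ≠ 0) →
    (l.map fun t => t.val y).sum ≤ (M : ℝ) / 2 ^ 61

/-- atoms `(w, a, b)`: weight `w/2^20` at `(a + b i)/2^24` -/
abbrev At := Int × Int × Int

def atOk (l : List At) : Bool := l.all fun t => decide (t.2.1 * t.2.1 + t.2.2 * t.2.2 < 2 ^ 48)

/-- `2^96 ‖1 - Y W‖²` -/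
def n1 (a b c d : Int) : Nat :=
  (2 ^ 48 - (a * c - b * d)).natAbs ^ 2 + (a * d + b * c).natAbs ^ 2

def enRow (s : At) : List At → Int
  | [] => 0
  | t :: l => wlg (-(s.1 * t.1)) (n1 s.2.1 s.2.2 t.2.1 (-t.2.2) * n1 s.2.1 s.2.2 t.2.1 t.2.2) 192 +
      enRow s l

/-- upper bound for `2^81 · en` -/
def enHi (L : List At) : List At → Int
  | [] => 0
  | s :: l => enRow s L + enHi L l

/-- `1 + Y² - 2 Y x` -/
def mk1 (t : At) : Term :=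
  ⟨t.1, (2 ^ 48 + t.2.1 * t.2.1 - t.2.2 * t.2.2) * 2 ^ 5, 2 * t.2.1 * t.2.2 * 2 ^ 5,
    -t.2.1, -t.2.2, 0, 0, 53⟩

/-- `(1 + Y²)(3x² + 2x + 3) + 2Y(1-x)²` -/
def mk2 (t : At) : Term :=
  ⟨t.1, (3 * (2 ^ 48 + t.2.1 * t.2.1 - t.2.2 * t.2.2) + t.2.1 * 2 ^ 25) * 2 ^ 60,
    (6 * t.2.1 * t.2.2 + t.2.2 * 2 ^ 25) * 2 ^ 60,
    (2 * (2 ^ 48 + t.2.1 * t.2.1 - t.2.2 * t.2.2) - t.2.1 * 2 ^ 26) * 2 ^ 30,
    (4 * t.2.1 * t.2.2 - t.2.2 * 2 ^ 26) * 2 ^ 30,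
    3 * (2 ^ 48 + t.2.1 * t.2.1 - t.2.2 * t.2.2) + t.2.1 * 2 ^ 25,
    6 * t.2.1 * t.2.2 + t.2.2 * 2 ^ 25, 108⟩

/-- `(1 + Y)² - 4 Y s` -/
def mk3 (t : At) : Term :=
  ⟨t.1, ((2 ^ 24 + t.2.1) ^ 2 - t.2.2 * t.2.2) * 2 ^ 4, 2 * (2 ^ 24 + t.2.1) * t.2.2 * 2 ^ 4,
    -t.2.1, -t.2.2, 0, 0, 52⟩

/-- `(1 + Y²)(1 + 3s) - 2Y(1 - s)`, weight `-w` -/
def mk4 (t : At) : Term :=
  ⟨-t.1, ((2 ^ 24 - t.2.1) ^ 2 - t.2.2 * t.2.2) * 2 ^ 30, -(2 * (2 ^ 24 - t.2.1) * t.2.2 * 2 ^ 30),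
    3 * (2 ^ 48 + t.2.1 * t.2.1 - t.2.2 * t.2.2) + t.2.1 * 2 ^ 25,
    6 * t.2.1 * t.2.2 + t.2.2 * 2 ^ 25, 0, 0, 78⟩

def wsum (l : List At) : Int := (l.map fun t => t.1).sum

/-- the terms of `Gx α (e/2^20) + α` -/
def termsX (α e : Int) (l₁ l₂ : List At) : List Term :=
  ⟨(14 - α) * 2 ^ 20, 0, 0, 1, 0, 0, 0, 30⟩ :: ⟨47 * 2 ^ 20, 2, 0, 0, 0, 0, 0, 0⟩ ::
    ⟨-49 * 2 ^ 20, 2 ^ 60, 0, 0, 0, 1, 0, 60⟩ :: ⟨4 * 2 ^ 20 - 2 * e, 2 ^ 30, 0, -1, 0, 0, 0, 30⟩ ::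
    ⟨e - wsum l₂, 3 * 2 ^ 60, 0, 2 ^ 31, 0, 3, 0, 60⟩ :: (l₁.map mk1 ++ l₂.map mk2)

/-- the terms of `Gs (e/2^20)` -/
def termsS (e : Int) (l₂ l₃ : List At) : List Term :=
  ⟨6 * 2 ^ 20, 0, 0, 1, 0, 0, 0, 30⟩ :: ⟨2 * 2 ^ 20 - e, 2 ^ 30, 0, -1, 0, 0, 0, 30⟩ ::
    ⟨e + wsum l₂, 2 ^ 30, 0, 3, 0, 0, 0, 30⟩ :: (l₃.map mk3 ++ l₂.map mk4)

end Crest.Agent.R6
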